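import Vale.Agent.P120.Full.Main

/-!
# P120: a bounded Riesz transform forces uniform rectifiability, in every dimension and codimension
-/

namespace Vale.Agent.Results.P120.DavidSemmes

open MeasureTheory
open Vale.Agent.P120

/-- For all `1 ≤ n < d`, an `n`-AD-regular measure whose Riesz transform of dimension `n` is
bounded on `L²` is uniformly `n`-rectifiable. -/
theorem result {E : Type*} [NormedAddCommGroup E] [InnerProductSpace ℝ E] [MeasurableSpace E]
    [BorelSpace E] [FiniteDimensional ℝ E] {n : ℕ} (hn : 1 ≤ n) (hnd : n < Module.finrank ℝ E)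
    (μ : Measure E) (hAD : ADRegular n μ) (hR : RieszBounded n μ) :
    Full.UniformlyRectifiable n μ :=
  Full.davidSemmes hn hnd hAD hR

end Vale.Agent.Results.P120.DavidSemmes
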